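import Vale.Agent.P039.Main
import Vale.Agent.P039.Ham

/-! Hamiltonicity when the non-quadrilateral faces of one colour class split into two acyclic sets. -/

namespace Vale.Agent.Results.P039.SplitBigFaces

open Vale.Agent.P039

theorem result : ∀ (V : Type) [Fintype V] [DecidableEq V] [Nonempty V] (a b c : V → V),
    (∀ x, a (a x) = x ∧ b (b x) = x ∧ c (c x) = x) →
    (∀ x, a x ≠ x ∧ b x ≠ x ∧ c x ≠ x) →
    (∀ x, a x ≠ b x ∧ b x ≠ c x ∧ c x ≠ a x) →
    (∀ x y, Relation.ReflTransGen (fun u v => v = a u ∨ v = b u ∨ v = c u) x y) →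
    ∀ F : Set V, (∀ x ∈ F, b x ∈ F ∧ c x ∈ F) →
    (∀ T : Set V, T.Nonempty → (∀ x ∈ T, b x ∈ T ∧ c x ∈ T) →
      (∀ x ∈ T, x ∈ F ∧ ¬ IsQuad b c x) →
      ∃ A ⊆ T, (∀ x ∈ A, b x ∈ A ∧ c x ∈ A) ∧ ∃ e ∈ A,
        (∀ x ∈ A, ∀ y ∈ A, SameCycle2 a b x y → y = x ∨ y = b x) ∧
        ∀ x ∈ A, ∀ y ∈ T, y ∉ A → SameCycle2 a b x y → x = e ∨ x = b e) →
    (∀ T : Set V, T.Nonempty → (∀ x ∈ T, b x ∈ T ∧ c x ∈ T) →
      (∀ x ∈ T, x ∉ F ∧ ¬ IsQuad b c x) →
      ∃ A ⊆ T, (∀ x ∈ A, b x ∈ A ∧ c x ∈ A) ∧ ∃ e ∈ A,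
        (∀ x ∈ A, ∀ y ∈ A, SameCycle2 c a x y → y = x ∨ y = c x) ∧
        ∀ x ∈ A, ∀ y ∈ T, y ∉ A → SameCycle2 c a x y → x = e ∨ x = c e) →
    (colouredGraph a b c).IsHamiltonian := by
  intro V _ _ _ a b c hinv hfree hdist hconn F hF hG hB
  classical
  have ha : Inv a := ⟨fun x => (hinv x).1, fun x => (hfree x).1⟩
  have hb : Inv b := ⟨fun x => (hinv x).2.1, fun x => (hfree x).2.1⟩
  have hc : Inv c := ⟨fun x => (hinv x).2.2, fun x => (hfree x).2.2⟩
  obtain ⟨U, hU, hR⟩ := exists_connected ha hb hc hconn (Finset.univ.filter (· ∈ F))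
    (fun x hx => by simp only [Finset.mem_filter, Finset.mem_univ, true_and] at hx ⊢; exact hF x hx)
    (fun T hTF hne hT hnq => by
      obtain ⟨A, hAT, hA, e, heA, h1, h2⟩ := hG ↑T (by simpa using hne)
        (fun x hx => by simpa using hT x (Finset.mem_coe.1 hx)) (fun x hx => ⟨by simpa using hTF (Finset.mem_coe.1 hx),
          hnq x (Finset.mem_coe.1 hx)⟩)
      refine ⟨A.toFinset, ?_, ?_, e, ?_, ?_, ?_⟩
      · intro x hx; exact hAT (by simpa using hx)
      · intro x hx; simpa using hA x (by simpa using hx)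
      · simpa using heA
      · simpa using h1
      · simpa using h2)
    (fun T hne hT hTF => by
      obtain ⟨A, hAT, hA, e, heA, h1, h2⟩ := hB ↑T (by simpa using hne)
        (fun x hx => by simpa using hT x (Finset.mem_coe.1 hx)) (fun x hx => by simpa using hTF x (Finset.mem_coe.1 hx))
      refine ⟨A.toFinset, ?_, ?_, e, ?_, ?_, ?_⟩
      · intro x hx; exact hAT (by simpa using hx)
      · intro x hx; simpa using hA x (by simpa using hx)
      · simpa using heA
      · simpa using h1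
      · simpa using h2)
  refine isHamiltonian_of_connected ha (sw_inv hb hc hU)
    (fun x => sw_ne (fun z => (hdist z).1) (fun z => (hdist z).2.2) U x) ?_ ?_ hR
  · intro x
    simp [colouredGraph, Ne.symm (ha.free x)]
  · intro x
    unfold sw
    split
    · simp [colouredGraph, Ne.symm (hc.free x)]
    · simp [colouredGraph, Ne.symm (hb.free x)]

end Vale.Agent.Results.P039.SplitBigFaces
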